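import Vale.Agent.P361.Main2
import Vale.Agent.P361.SpinRel

open scoped Matrix Topology
open Filter

namespace Vale.Agent.Results.P361.BlochSmallField

open Vale.Agent.P361

/-- The magnetization per site in the field `h`: the right derivative of `p_β` at `h`. -/
noncomputable def magnet (n : ℕ) (β h : ℝ) : ℝ :=
  derivWithin (pressure n β) (Set.Ici h) h

/-- The Bose function `g_a(e^{-δ}) = ∑_{j ≥ 1} e^{-jδ} j^{-a}`. -/
noncomputable def bose (a δ : ℝ) : ℝ :=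
  ∑' j : ℕ, Real.exp (-(((j : ℝ) + 1) * δ)) / ((j : ℝ) + 1) ^ a

/-- Bloch's law, two-sided and with the exact constant, for the infinite-volume magnetization in
every field `h ≥ β^{-201/200}`, together with the one-sided law at `h = 0+`. -/
theorem result (n : ℕ) (hn : 1 ≤ n) :
    ((∀ a, (spin n a).IsHermitian) ∧
      spin n 0 * spin n 1 - spin n 1 * spin n 0 = Complex.I • spin n 2 ∧
      spin n 1 * spin n 2 - spin n 2 * spin n 1 = Complex.I • spin n 0 ∧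
      spin n 2 * spin n 0 - spin n 0 * spin n 2 = Complex.I • spin n 1 ∧
      ∑ a, spin n a * spin n a =
        ((n : ℂ) / 2 * ((n : ℂ) / 2 + 1)) • (1 : Matrix (Fin (n + 1)) (Fin (n + 1)) ℂ)) ∧
    (∀ β : ℝ, 0 < β →
      (∀ h : ℝ, Tendsto (pressureN n β h) atTop (𝓝 (pressure n β h))) ∧
      ConvexOn ℝ Set.univ (pressure n β) ∧
      (∀ h : ℝ, HasDerivWithinAt (pressure n β) (magnet n β h) (Set.Ici h) h) ∧
      magnet n β 0 = spontMag n β) ∧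
    (∀ c : ℝ, c < (riemannZeta (3 / 2)).re /
        (8 * Real.pi ^ (3 / 2 : ℝ) * ((n : ℝ) / 2) ^ (3 / 2 : ℝ)) →
      ∀ᶠ β : ℝ in atTop, c ≤ β ^ (3 / 2 : ℝ) * ((n : ℝ) / 2 - spontMag n β)) ∧
    (∀ ε : ℝ, 0 < ε → ∀ᶠ β : ℝ in atTop, ∀ h : ℝ, β ^ (-(201 / 200) : ℝ) ≤ h →
      |β ^ (3 / 2 : ℝ) * ((n : ℝ) / 2 - magnet n β h) - bose (3 / 2) (β * h) /
          (8 * Real.pi ^ (3 / 2 : ℝ) * ((n : ℝ) / 2) ^ (3 / 2 : ℝ))| ≤ ε ∧
        |β ^ (5 / 2 : ℝ) * (pressure n β h - 3 * ((n : ℝ) / 2) ^ 2 - (n : ℝ) / 2 * h) -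
          bose (5 / 2) (β * h) /
            (8 * Real.pi ^ (3 / 2 : ℝ) * ((n : ℝ) / 2) ^ (3 / 2 : ℝ))| ≤ ε) ∧
    ∀ h : ℝ → ℝ, (∀ᶠ β : ℝ in atTop, β ^ (-(201 / 200) : ℝ) ≤ h β) →
      Tendsto (fun β => β * h β) atTop (𝓝 0) →
      Tendsto (fun β : ℝ => β ^ (3 / 2 : ℝ) * ((n : ℝ) / 2 - magnet n β (h β))) atTop
        (𝓝 ((riemannZeta (3 / 2)).re /
          (8 * Real.pi ^ (3 / 2 : ℝ) * ((n : ℝ) / 2) ^ (3 / 2 : ℝ)))) := by
  refine ⟨⟨spin_herm, spin_comm01, spin_comm12, spin_comm20, spin_casimir⟩,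
    fun _ hβ => ⟨pressure_tendsto n hβ, pressure_convex n hβ, magnet_hasDeriv n hβ, rfl⟩,
    bloch_lower hn, fun ε hε => (fin_all n hn ε hε).mono fun β H h hh => ?_,
    cor_pf fin_all g_pf n hn⟩
  have e : ∀ a : ℝ, bose a (β * h) / (8 * Real.pi ^ (3 / 2 : ℝ) * ((n : ℝ) / 2) ^ (3 / 2 : ℝ)) =
      cS n * gser a (β * h) := fun a => by rw [cS, one_div, div_eq_inv_mul]; rfl
  rw [e, e]
  exact H h hh

end Vale.Agent.Results.P361.BlochSmallField
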