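import Vale.Agent.P361.Press
import Vale.Agent.P361.SpinRel

open scoped Matrix Topology
open Filter

namespace Vale.Agent.Results.P361.BlochUpperMag

open Vale.Agent.P361

/-- One half of Bloch's law for every spin `S = n/2`: the lower limit of
`β^{3/2} (S - m_S(β))` is at least `ζ(3/2) / (8 π^{3/2} S^{3/2})`. -/
theorem result (n : ℕ) (hn : 1 ≤ n) :
    ((∀ a, (spin n a).IsHermitian) ∧
      spin n 0 * spin n 1 - spin n 1 * spin n 0 = Complex.I • spin n 2 ∧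
      spin n 1 * spin n 2 - spin n 2 * spin n 1 = Complex.I • spin n 0 ∧
      spin n 2 * spin n 0 - spin n 0 * spin n 2 = Complex.I • spin n 1 ∧
      ∑ a, spin n a * spin n a =
        ((n : ℂ) / 2 * ((n : ℂ) / 2 + 1)) • (1 : Matrix (Fin (n + 1)) (Fin (n + 1)) ℂ)) ∧
    (∀ β : ℝ, 0 < β →
      (∀ h : ℝ, Tendsto (pressureN n β h) atTop (𝓝 (pressure n β h))) ∧
      ConvexOn ℝ Set.univ (pressure n β) ∧
      HasDerivWithinAt (pressure n β) (spontMag n β) (Set.Ici 0) 0) ∧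
    ∀ c : ℝ, c < (riemannZeta (3 / 2)).re /
        (8 * Real.pi ^ (3 / 2 : ℝ) * ((n : ℝ) / 2) ^ (3 / 2 : ℝ)) →
      ∀ᶠ β : ℝ in atTop, c ≤ β ^ (3 / 2 : ℝ) * ((n : ℝ) / 2 - spontMag n β) :=
  ⟨⟨spin_herm, spin_comm01, spin_comm12, spin_comm20, spin_casimir⟩,
    fun _ hβ => ⟨pressure_tendsto n hβ, pressure_convex n hβ, spontMag_hasDeriv n hβ⟩,
    bloch_lower hn⟩

end Vale.Agent.Results.P361.BlochUpperMag
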